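import Vale.Agent.P052.Main

namespace Vale.Agent.Results.P052.BorsukFailsFrom63

/-- Borsuk's conjecture fails in every dimension at least 63. -/
theorem result : ∀ d : ℕ, 63 ≤ d →
    ∃ X : Set (EuclideanSpace ℝ (Fin d)), X.Finite ∧ 0 < Metric.diam X ∧
      ¬ ∃ S : Fin (d + 1) → Set (EuclideanSpace ℝ (Fin d)),
        X = (⋃ i, S i) ∧ ∀ i, Metric.diam (S i) < Metric.diam X :=
  fun _ hd => Vale.Agent.P052.borsuk_fails hd

end Vale.Agent.Results.P052.BorsukFailsFrom63
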